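import Vale.Agent.P363.Defs

/-!
P363: shared vocabulary for weak derivatives and weak equations on `ℝ³`.
-/

noncomputable section

namespace Vale.Agent.P363

open MeasureTheory
open scoped BigOperators Topology

/-- Coordinate unit vectors. -/
def unit3 (a : Fin 3) : Space := EuclideanSpace.single a (1 : ℝ)

/-- The height above the mirror plane. -/
def height (x : Space) : ℝ := x 2

/-- The mirror reflection. -/
def mirror (x : Space) : Space := x - (2 * height x) • unit3 2

/-- Directional derivative. -/
def deriv3 (a : Fin 3) (f : Space → ℝ) (x : Space) : ℝ := fderiv ℝ f x (unit3 a)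

/-- The Laplacian of a smooth function. -/
def lap (f : Space → ℝ) (x : Space) : ℝ := ∑ a : Fin 3, deriv3 a (deriv3 a f) x

/-- Test functions supported in a set. -/
structure IsBump (U : Set Space) (η : Space → ℝ) : Prop where
  smooth : ContDiff ℝ ((⊤ : ℕ∞) : WithTop ℕ∞) η
  compact : HasCompactSupport η
  supp : tsupport η ⊆ U

/-- `g` is the weak gradient of `f` in the open set `U`. -/
def HasWeakGrad (U : Set Space) (f : Space → ℝ) (g : Fin 3 → Space → ℝ) : Prop :=
  LocallyIntegrableOn f U ∧ (∀ a, LocallyIntegrableOn (g a) U) ∧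
    ∀ η, IsBump U η → ∀ a, ∫ x, f x * deriv3 a η x = -∫ x, g a x * η x

/-- `Δ f = h` weakly in the open set `U`. -/
def WeakPoisson (U : Set Space) (f h : Space → ℝ) : Prop :=
  LocallyIntegrableOn f U ∧ LocallyIntegrableOn h U ∧
    ∀ η, IsBump U η → ∫ x, f x * lap η x = ∫ x, h x * η x

/-- `Δ f ≥ h` weakly in the open set `U`. -/
def WeakSubPoisson (U : Set Space) (f h : Space → ℝ) : Prop :=
  LocallyIntegrableOn f U ∧ LocallyIntegrableOn h U ∧
    ∀ η, IsBump U η → (∀ x, 0 ≤ η x) → ∫ x, h x * η x ≤ ∫ x, f x * lap η x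

end Vale.Agent.P363
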