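import Vale.Agent.P363.Inter.Assembly
import Vale.Agent.P363.Inter.Slice.Energy
import Vale.Agent.P363.Inter.Slice.Repel
import Vale.Agent.P363.Inter.Slice.Norm
import Vale.Agent.P363.Inter.Slice.Perp
import Vale.Agent.P363.Inter.Slice.Weight
import Vale.Agent.P363.Inter.Slice.Par
import Vale.Agent.P363.Inter.Bar.Decay
import Vale.Agent.P363.Inter.Bar.AmpBound
import Vale.Agent.P363.Inter.Bar.Plane
import Vale.Agent.P363.Inter.Bar.DownLower
import Vale.Agent.P363.Inter.Bar.PerpBound
import Vale.Agent.P363.Inter.Ion.Dipole
import Vale.Agent.P363.Inter.Reg.Assemble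
import Vale.Agent.P363.Ext.Ground
import Vale.Agent.P363.Ext.Chain
import Vale.Agent.P363.Ext.Asymp.Main
import Vale.Agent.P363.Ext.Growth.Main
import Vale.Agent.P363.Ext.Growth.Plane
import Vale.Agent.P363.Ext.Growth.Barrier
import Vale.Agent.P363.Ext.Growth.Core
import Vale.Agent.P363.Ext.Growth.JumpEst
import Vale.Agent.P363.Ext.Growth.Osc
import Vale.Agent.P363.Ext.Small.Main

/-!
P363: the chain to `Counterexample`, with the modules already proved filled in.
-/

noncomputable section

namespace Vale.Agent.P363

open Inter

/-- The exponential moments and slice bounds. -/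
theorem decayStmt : DecayStmt := decay normStmt perpStmt

/-- The amplitude bound. -/
theorem ampBoundStmt : AmpBoundStmt := ampBound ampStmt repelStmt decayStmt

/-- The bound of the excited part. -/
theorem perpBoundStmt : PerpBoundStmt :=
  perpBound perpStmt weightStmt weightEnergyStmt parStmt ampBoundStmt

/-- The interacting half. -/
theorem interHalf : InterGoal :=
  Inter.interGoal decayStmt ampBoundStmt perpBoundStmt
    (plane ampStmt repelStmt decayStmt ampBoundStmt perpBoundStmt dipoleStmt)
    (downLower ampStmt repelStmt decayStmt) (densityStmt repelStmt (ionFar repelStmt))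
    perpEnergyStmt

/-- The Kohn-Sham half from the excess estimate. -/
theorem ksGoal_of_excess (hEx : Ext.Growth.ExcessStmt) : KSGoal :=
  have hK := Ext.kernelSmall_of Ext.Small.groundSmall Ext.Small.smallProfiles
  have hG := Ext.ground hK
  have hJ := Ext.Growth.jumpEst hEx
  have hO := Ext.Growth.osc_of hK
  have hGr := Ext.Growth.growth_of Ext.Growth.plane
    (Ext.Growth.barrier_of Ext.Small.smallProfiles hG Ext.bulkOne) (Ext.Growth.core hJ hO)
  Ext.ksGoal_of_steps hG (Ext.Asymp.profileAsymp_of_steps hGr hG hJ hO)

/-- The counterexample from the excess estimate. -/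
theorem counterexample_of_excess (hEx : Ext.Growth.ExcessStmt) : Counterexample :=
  counterexample_of interHalf (ksGoal_of_excess hEx)

end Vale.Agent.P363
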