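import Mathlib

/-!
P363: Coulomb molecules, noninteracting Hamiltonians with potentials in `L^{3/2} + L^∞`, ground
states of the closed quadratic forms, and ensemble representability of densities.
-/

noncomputable section

namespace Vale.Agent.P363

open MeasureTheory Filter
open scoped BigOperators Topology ENNReal

/-- Physical space. -/
abbrev Space : Type := EuclideanSpace ℝ (Fin 3)

/-- Positions of `n` electrons. -/
abbrev Cfg (n : ℕ) : Type := Fin n → Space

/-- Spin values of `n` electrons. -/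
abbrev Spins (n : ℕ) : Type := Fin n → Fin 2

/-- Test wave functions: Lipschitz, compactly supported and antisymmetric in the joint space-spin
variables. -/
structure IsTest {n : ℕ} (ψ : Spins n → Cfg n → ℂ) : Prop where
  lipschitz : ∀ s, ∃ K : NNReal, LipschitzWith K (ψ s)
  compact : ∀ s, HasCompactSupport (ψ s)
  antisymm : ∀ (p : Equiv.Perm (Fin n)) (s : Spins n) (x : Cfg n),
    ψ (s ∘ p) (x ∘ p) = ((Equiv.Perm.sign p : ℤ) : ℂ) * ψ s x

/-- Squared gradient with respect to the position of electron `i`. -/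
def gradSq {n : ℕ} (i : Fin n) (f : Cfg n → ℂ) (x : Cfg n) : ℝ :=
  ∑ a : Fin 3, ‖fderiv ℝ f x (Pi.single i (EuclideanSpace.single a (1 : ℝ)))‖ ^ 2

/-- The squared norm. -/
def normSq {n : ℕ} (ψ : Spins n → Cfg n → ℂ) : ℝ :=
  ∑ s, ∫ x, ‖ψ s x‖ ^ 2

/-- The quadratic form of `∑ i, -Δ_i / 2 + W` on test functions. -/
def energy {n : ℕ} (W : Cfg n → ℝ) (ψ : Spins n → Cfg n → ℂ) : ℝ :=
  ∑ s, ∫ x, ((1 / 2 : ℝ) * ∑ i, gradSq i (ψ s) x + W x * ‖ψ s x‖ ^ 2)

/-- The potential of the noninteracting Hamiltonian `H_s(v)`. -/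
def oneBody (v : Space → ℝ) {n : ℕ} (x : Cfg n) : ℝ :=
  ∑ i, v (x i)

/-- The potential of the Coulomb molecule with nuclei of charges `Z j` at `R j`. -/
def coulomb {M : ℕ} (R : Fin M → Space) (Z : Fin M → ℕ) {n : ℕ} (x : Cfg n) : ℝ :=
  -∑ i, ∑ j, (Z j : ℝ) / ‖x i - R j‖ + ∑ i, ∑ k ∈ Finset.Ioi i, 1 / ‖x i - x k‖

/-- A normalised ground state of the closed semibounded form: an `L²` limit of normalised test
functions whose energies tend to a lower bound `E` of the energy of all normalised test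
functions. Thus `E` is the infimum of the spectrum and it is attained. -/
def IsGroundState {n : ℕ} (W : Cfg n → ℝ) (Ψ : Spins n → Cfg n → ℂ) : Prop :=
  (∀ s, MemLp (Ψ s) 2) ∧ ∃ E : ℝ,
    (∀ φ : Spins n → Cfg n → ℂ, IsTest φ → normSq φ = 1 → E ≤ energy W φ) ∧
    ∃ φ : ℕ → Spins n → Cfg n → ℂ, (∀ k, IsTest (φ k) ∧ normSq (φ k) = 1) ∧
      Tendsto (fun k => energy W (φ k)) atTop (𝓝 E) ∧
      ∀ s, Tendsto (fun k => ∫ x, ‖φ k s x - Ψ s x‖ ^ 2) atTop (𝓝 0)

/-- The class `L^{3/2} + L^∞` of real potentials. -/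
def InV (v : Space → ℝ) : Prop :=
  ∃ v₁ v₂ : Space → ℝ, MemLp v₁ (3 / 2) ∧ MemLp v₂ ∞ ∧ v = v₁ + v₂

/-- The spin-summed one-body density. -/
def density {m : ℕ} (Ψ : Spins (m + 1) → Cfg (m + 1) → ℂ) (r : Space) : ℝ≥0∞ :=
  ∑ i : Fin (m + 1), ∑ s, ∫⁻ y : Cfg m, ‖Ψ s (i.insertNth r y)‖ₑ ^ 2

/-- Noninteracting ensemble representability: the density is almost everywhere that of a countable
mixture of normalised ground states of `H_s(v)` with `v` in `L^{3/2} + L^∞`. -/
def Representable (m : ℕ) (ρ : Space → ℝ≥0∞) : Prop :=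
  ∃ (v : Space → ℝ) (w : ℕ → ℝ≥0∞) (Φ : ℕ → Spins (m + 1) → Cfg (m + 1) → ℂ),
    InV v ∧ ∑' k, w k = 1 ∧ (∀ k, IsGroundState (oneBody v) (Φ k)) ∧
    ρ =ᵐ[volume] fun r => ∑' k, w k * density (Φ k) r

/-- The answer to the question: some Coulomb molecule has a ground state whose density is not
representable. -/
def Counterexample : Prop :=
  ∃ (m M : ℕ) (R : Fin M → Space) (Z : Fin M → ℕ) (Ψ : Spins (m + 1) → Cfg (m + 1) → ℂ),
    0 < M ∧ Function.Injective R ∧ (∀ j, 1 ≤ Z j) ∧ IsGroundState (coulomb R Z) Ψ ∧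
      ¬ Representable m (density Ψ)

end Vale.Agent.P363
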