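import Vale.Agent.P363.KS.FormDefs

/-!
P363: the seam between the interacting problem and the Kohn-Sham argument.

`NodalDensity n` collects what the large nuclear charge analysis yields about the density `n` of
a mirror-odd three-electron ground state, at large distance from two nuclei on the axis `2`.
With `r = ‖x‖`, `z = height x`, `G r = r ^ (k / a - 2) * exp (-a r)` and
`G₀ r = a ^ 2 / 2 - k / r` the function `z * G` solves `(-Δ / 2 + G₀) (z G) = 0` up to a relative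
error of order `r⁻²`. The Kohn-Sham side uses nothing else about the molecule.
-/

noncomputable section

namespace Vale.Agent.P363

open MeasureTheory

/-- The radial tail `G r = r ^ (k / a - 2) * exp (-a r)`. -/
def tailG (a k r : ℝ) : ℝ := r ^ (k / a - 2) * Real.exp (-(a * r))

/-- The far field potential `G₀ r = a ^ 2 / 2 - k / r`. -/
def farPot (a k r : ℝ) : ℝ := a ^ 2 / 2 - k / r

/-- The defect `Δ √n / (2 √n) - G₀`, written in terms of the weak gradient `gn` and the weak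
Laplacian `ln` of `n`. -/
def sqrtDefect (a k : ℝ) (n : Space → ℝ) (gn : Fin 3 → Space → ℝ) (ln : Space → ℝ) (x : Space) :
    ℝ :=
  ln x / (4 * n x) - (∑ i, gn i x ^ 2) / (8 * n x ^ 2) - farPot a k ‖x‖

/-- The structure of a nodal-plane density, with all constants exposed. -/
structure NodalData (n : Space → ℝ) (a k R₀ c C : ℝ) (gn : Fin 3 → Space → ℝ)
    (ln : Space → ℝ) : Prop where
  a_pos : 0 < a
  c_pos : 0 < c
  one_le : 1 ≤ R₀
  continuous : Continuous n
  positive : ∀ x, 0 < n x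
  bounded : ∀ x, n x ≤ C
  integrable : Integrable n
  integral_eq : ∫ x, n x = 3
  axial : AxialSym n
  hasGrad : HasWeakGrad Set.univ n gn
  poisson : WeakPoisson Set.univ n ln
  grad_memLp : ∀ (i : Fin 3) (R : ℝ), MemLp (gn i) 6 (volume.restrict (Metric.ball 0 R))
  lap_memLp : ∀ R : ℝ, MemLp ln 2 (volume.restrict (Metric.ball 0 R))
  lower : ∀ x, R₀ ≤ ‖x‖ →
    c * (|height x| + (‖x‖ ^ 3)⁻¹) * tailG a k ‖x‖ ≤ Real.sqrt (n x)
  upper : ∀ x, R₀ ≤ ‖x‖ →
    Real.sqrt (n x) ≤ C * (|height x| + (‖x‖ ^ 3)⁻¹) * tailG a k ‖x‖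
  lipschitz : ∀ x y, R₀ ≤ ‖x‖ → R₀ ≤ ‖y‖ → dist x y ≤ 1 →
    |Real.sqrt (n x) - Real.sqrt (n y)| ≤ C * (1 + |height x|) * tailG a k ‖x‖ * dist x y
  regular : ∃ P : Finset Space, ∀ K : Set Space, IsCompact K → Disjoint K (↑P) →
    ∃ B : ℝ, ∀ᵐ x : Space, x ∈ K → |ln x| ≤ B
  lap_far : ∀ᵐ x : Space, R₀ ≤ ‖x‖ → |ln x| ≤ C * ((1 + |height x|) * tailG a k ‖x‖) ^ 2
  defect_lower : ∀ᵐ x : Space, R₀ ≤ ‖x‖ → -(C / ‖x‖ ^ 2) ≤ sqrtDefect a k n gn ln x
  defect_avg : ∀ x, R₀ ≤ ‖x‖ → ‖x‖⁻¹ ≤ |height x| →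
    IntegrableOn (sqrtDefect a k n gn ln) (Metric.ball x (min |height x| 1 / 4)) ∧
      ∫ y in Metric.ball x (min |height x| 1 / 4), |sqrtDefect a k n gn ln y| ≤
        C * (min |height x| 1 / 4) ^ 3 * ((‖x‖ ^ 2)⁻¹ + (‖x‖ ^ 6 * |height x| ^ 4)⁻¹)

/-- A density with the structure produced by the interacting analysis. -/
def NodalDensity (n : Space → ℝ) : Prop :=
  ∃ (a k R₀ c C : ℝ) (gn : Fin 3 → Space → ℝ) (ln : Space → ℝ),
    NodalData n a k R₀ c C gn ln

/-- The Kohn-Sham half of the disproof. -/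
def KSGoal : Prop :=
  ∀ n : Space → ℝ, NodalDensity n → ¬ Representable 2 fun x => ENNReal.ofReal (n x)

end Vale.Agent.P363
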