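import Vale.Agent.P363.Exist.IonGap
import Vale.Agent.P363.Exist.Bridge
import Vale.Agent.P363.Spec

/-!
P363: the chain to `Counterexample`. The existence part, the scaling and the bookkeeping are
proved here; the interacting half `InterGoal` and the Kohn-Sham half `KSGoal` enter as hypotheses.
-/

noncomputable section

namespace Vale.Agent.P363

open MeasureTheory Filter
open scoped BigOperators Topology ENNReal

/-- The interacting half: for weak repulsion the density of the three-electron state has the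
nodal-plane structure. -/
def InterGoal : Prop :=
  ∀ l g u Dg Du eg eu e', ZeroOrder l g u Dg Du eg eu e' → ∀ C : ℝ,
    ∃ lam₀ : ℝ, 0 < lam₀ ∧ Inter.ForStates l C g u Dg Du eg eu
      (fun _ _ f _ _ _ _ _ _ _ _ =>
        ∃ n : Space → ℝ, n =ᵐ[volume] Inter.molDensity f ∧ NodalDensity n) lam₀

/-- The density of a state antisymmetric in the first two electrons. -/
theorem density1_ae {f : Cfg 3 → ℝ} (hf : MemLp f 2)
    (hanti : ∀ᵐ x, f (x ∘ Equiv.swap 0 1) = -f x) :
    density1 f =ᵐ[volume] fun r => ENNReal.ofReal (Inter.molDensity f r) := by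
  have hint : ∀ i : Fin 3, ∀ᵐ r : Space, Integrable fun y : Cfg 2 => f (i.insertNth r y) ^ 2 := by
    intro i
    have h := (volume_preserving_piFinSuccAbove (fun _ : Fin 3 => Space) i).symm _
    have hp := (h.integrable_comp_emb (MeasurableEquiv.measurableEmbedding _)).2 hf.integrable_sq
    rw [Measure.volume_eq_prod] at hp
    exact hp.prod_right_ae
  have hswap : ∀ᵐ r : Space, ∀ᵐ y : Cfg 2,
      f ((1 : Fin 3).insertNth r y) ^ 2 = f ((0 : Fin 3).insertNth r y) ^ 2 := by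
    have h := (volume_preserving_piFinSuccAbove (fun _ : Fin 3 => Space) 0).symm _
    have h2 : ∀ᵐ z : Space × Cfg 2,
        f ((0 : Fin 3).insertNth z.1 z.2 ∘ Equiv.swap 0 1) = -f ((0 : Fin 3).insertNth z.1 z.2) :=
      h.quasiMeasurePreserving.ae hanti
    rw [Measure.volume_eq_prod] at h2
    filter_upwards [Measure.ae_ae_of_ae_prod h2] with r hr
    filter_upwards [hr] with y hy
    have e : (0 : Fin 3).insertNth r y ∘ Equiv.swap 0 1 = (1 : Fin 3).insertNth r y := by
      funext j; fin_cases j <;> rfl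
    rw [e] at hy
    rw [hy, neg_sq]
  filter_upwards [hint 0, hint 1, hint 2, hswap] with r h0 h1 h2 hs
  have hc : ∀ i : Fin 3, (Integrable fun y : Cfg 2 => f (i.insertNth r y) ^ 2) →
      ∫⁻ y : Cfg 2, ENNReal.ofReal (f (i.insertNth r y) ^ 2) =
        ENNReal.ofReal (∫ y : Cfg 2, f (i.insertNth r y) ^ 2) :=
    fun i hi => (ofReal_integral_eq_lintegral_ofReal hi
      (Eventually.of_forall fun y => sq_nonneg _)).symm
  have hn : ∀ i : Fin 3, 0 ≤ ∫ y : Cfg 2, f (i.insertNth r y) ^ 2 :=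
    fun i => integral_nonneg fun y => sq_nonneg _
  rw [density1, Fin.sum_univ_three, hc 0 h0, hc 1 h1, hc 2 h2, integral_congr_ae hs,
    ← ENNReal.ofReal_add (hn 0) (hn 0), ← ENNReal.ofReal_add (add_nonneg (hn 0) (hn 0)) (hn 2)]
  congr 1
  simp only [Inter.molDensity, Inter.ipN, Inter.slice, sq]
  ring

/-- The two halves give the counterexample. -/
theorem counterexample_of (hI : InterGoal) (hK : KSGoal) : Counterexample := by
  obtain ⟨γ, -, hγ⟩ := Exist.zeroOrder
  obtain ⟨l₀, hl₀, hl⟩ := hγ 1 one_pos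
  obtain ⟨g, u, Dg, Du, eg, eu, hz, -, -⟩ := hl l₀ le_rfl
  obtain ⟨l1, C, hl1, hst⟩ := Exist.molStates hz
  obtain ⟨l2, hl2, hnod⟩ := hI _ _ _ _ _ _ _ _ hz C
  obtain ⟨Z, hZ⟩ := exists_nat_gt (max 1 (1 / min l1 l2))
  have hm : 0 < min l1 l2 := lt_min hl1 hl2
  have hZ1 : (1 : ℝ) < Z := lt_of_le_of_lt (le_max_left _ _) hZ
  have hZ0 : (0 : ℝ) < Z := by linarith
  have hZn : 1 ≤ Z := by exact_mod_cast hZ1.le
  have hlam : 1 / (Z : ℝ) < min l1 l2 := by
    have := lt_of_le_of_lt (le_max_right _ _) hZ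
    rw [div_lt_iff₀ hm] at this
    rw [div_lt_iff₀ hZ0]
    linarith
  have hlam0 : 0 < 1 / (Z : ℝ) := by positivity
  obtain ⟨E3, f, D, E2, χ, Dχ, Es, χs, Ds, Et, χt, Dt, hmol⟩ :=
    hst _ ⟨hlam0, lt_of_lt_of_le hlam (min_le_left _ _)⟩
  obtain ⟨n, hn, hnd⟩ := hnod _ ⟨hlam0, lt_of_lt_of_le hlam (min_le_right _ _)⟩
    E3 f D E2 χ Dχ Es χs Ds Et χt Dt hmol
  obtain ⟨hgs, hden⟩ := Exist.bridge l₀ Z E3 f D hZn hmol.three.lowest
  refine ⟨2, 2, _, _, _, two_pos, ?_, fun _ => hZn, hgs, fun hrep => hK n hnd ?_⟩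
  · have hne : (l₀ / Z) • unit3 2 ≠ -((l₀ / Z) • unit3 2) := fun h => by
      have h2 := congrArg (fun x : Space => x 2) h
      simp [unit3] at h2
      have : 0 < l₀ / (Z : ℝ) := by positivity
      linarith
    intro a b h
    fin_cases a <;> fin_cases b <;> first | rfl | exact absurd h hne | exact absurd h.symm hne
  · obtain ⟨v, w, Φ, hv, hw, hΦ, hρ⟩ :=
      representable_scale 2 (Z : ℝ)⁻¹ _ (inv_pos.2 hZ0) hrep
    refine ⟨v, w, Φ, hv, hw, hΦ, EventuallyEq.trans ?_ hρ⟩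
    have hsc : ∀ r, ENNReal.ofReal ((Z : ℝ)⁻¹ ^ 3) * density (molState Z f) ((Z : ℝ)⁻¹ • r) =
        density1 f r := fun r => by
      rw [hden, smul_inv_smul₀ hZ0.ne', ← mul_assoc, ← ENNReal.ofReal_mul (by positivity),
        ← mul_pow, inv_mul_cancel₀ hZ0.ne', one_pow, ENNReal.ofReal_one, one_mul]
    filter_upwards [hn, density1_ae hmol.three.lowest.lim.1 hmol.three.anti] with r h1 h2
    rw [hsc, h2, h1]

end Vale.Agent.P363
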